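import Vale.Agent.P011.D4X.Defs2
import Vale.Agent.P011.E6.FixB
import Vale.Agent.P011.E6I.H64.Real

/-!
Block D4T: the hermitian form attached to `J` is anisotropic.
-/

open NumberField Topology

namespace Vale.Agent.P011.D4X

open Vale.Agent.P011.MPQ Vale.Agent.P011.D4 Vale.Agent.P011.D4.Oct Vale.Agent.P011.E6

section

variable {k L E : Type} [Field k] [Field L] [Field E] [Algebra k L] [Algebra k E] [Algebra L E]
  [IsScalarTower k L E] [NeZero (2 : E)] {ρ σ : E ≃ₐ[k] E} {ρL : L ≃ₐ[k] L} {α : E}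
  {a b c : kˣ} {q : Lˣ} (H : Hy ρ σ ρL α a b c q)

include H

omit [IsScalarTower k L E] [NeZero (2 : E)] in
theorem Hy.α0 : α ≠ 0 := by
  intro h
  have h1 := H.α2
  rw [h, mul_zero] at h1
  exact (map_ne_zero (algebraMap k E)).2 a.ne_zero h1.symm

theorem Hy.coord (x : E) : ∃ x0 x1 : L, x = algebraMap L E x0 + algebraMap L E x1 * α := by
  have hα := H.α0
  have h2 : (2 : E) ≠ 0 := NeZero.ne 2
  have hli : LinearIndependent L ![(1 : E), α] := by
    rw [LinearIndependent.pair_iff]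
    intro s t hst
    rw [Algebra.smul_def, Algebra.smul_def, mul_one] at hst
    have h1 := congrArg σ hst
    rw [map_add, map_mul, H.σL, H.σL, H.σα, map_zero] at h1
    have e1 : algebraMap L E t = 0 := by
      have : algebraMap L E t * (2 * α) = 0 := by linear_combination hst - h1
      rcases mul_eq_zero.1 this with h | h
      · exact h
      · exact absurd h (mul_ne_zero h2 hα)
    have e2 : algebraMap L E s = 0 := by
      rw [e1, zero_mul, add_zero] at hst
      exact hst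
    exact ⟨(map_eq_zero _).1 e2, (map_eq_zero _).1 e1⟩
  let B := basisOfLinearIndependentOfCardEqFinrank hli (by rw [Fintype.card_fin, H.h2])
  have hB := B.sum_repr x
  rw [Fin.sum_univ_two] at hB
  have b0 : B 0 = 1 := by
    rw [coe_basisOfLinearIndependentOfCardEqFinrank]; rfl
  have b1 : B 1 = α := by
    rw [coe_basisOfLinearIndependentOfCardEqFinrank]; rfl
  rw [b0, b1, Algebra.smul_def, Algebra.smul_def, mul_one] at hB
  exact ⟨_, _, hB.symm⟩

/-- The norm of `E / L`. -/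
theorem Hy.exists_nE (x : E) : ∃ n : L, algebraMap L E n = x * σ x ∧
    ∀ w : L →+* ℝ, w (algebraMap k L a) < 0 → 0 ≤ w n ∧ (w n = 0 → x = 0) := by
  obtain ⟨x0, x1, rfl⟩ := H.coord x
  refine ⟨x0 ^ 2 - algebraMap k L a * x1 ^ 2, ?_, fun w hw => ?_⟩
  · rw [map_add, map_mul, H.σL, H.σL, H.σα, map_sub, map_mul, map_pow, map_pow,
      ← IsScalarTower.algebraMap_apply, ← H.α2]
    ring
  · rw [map_sub, map_mul, map_pow, map_pow]
    refine ⟨by nlinarith [sq_nonneg (w x0), sq_nonneg (w x1)], fun h => ?_⟩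
    have h1 : w x1 ^ 2 = 0 := by nlinarith [sq_nonneg (w x0), sq_nonneg (w x1)]
    have h0 : w x0 ^ 2 = 0 := by nlinarith [sq_nonneg (w x0), sq_nonneg (w x1)]
    rw [pow_eq_zero_iff two_ne_zero, map_eq_zero] at h0 h1
    rw [h0, h1, map_zero, zero_mul, add_zero]

theorem Hy.bil_self (v : OctL E a b c) : bil v (Jm ρ σ α q v) =
    (v.fst.re + v.fst.imI * α) * σ (v.fst.re + v.fst.imI * α) +
    algebraMap L E q * (algebraMap L E q * ρ (algebraMap L E q)) *
      ((v.fst.re - v.fst.imI * α) * σ (v.fst.re - v.fst.imI * α)) -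
    algebraMap k E b * (algebraMap L E q * ρ (algebraMap L E q) *
      ((v.fst.imJ + v.fst.imK * α) * σ (v.fst.imJ + v.fst.imK * α)) +
      algebraMap L E q * ((v.fst.imJ - v.fst.imK * α) * σ (v.fst.imJ - v.fst.imK * α))) -
    algebraMap k E c * (algebraMap L E q * ρ (algebraMap L E q) *
      ((v.snd.re + v.snd.imI * α) * σ (v.snd.re + v.snd.imI * α)) +
      algebraMap L E q * ((v.snd.re - v.snd.imI * α) * σ (v.snd.re - v.snd.imI * α))) +
    algebraMap k E b * algebraMap k E c * (algebraMap L E q *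
      ((v.snd.imJ + v.snd.imK * α) * σ (v.snd.imJ + v.snd.imK * α)) +
      algebraMap L E q * ρ (algebraMap L E q) *
        ((v.snd.imJ - v.snd.imK * α) * σ (v.snd.imJ - v.snd.imK * α))) := by
  have hα := H.α0
  have h2 : (2 : E) ≠ 0 := NeZero.ne 2
  have ha : ((up E a : Eˣ) : E) = α * α := by
    rw [H.α2]; rfl
  have hb : algebraMap k E b = ((up E b : Eˣ) : E) := rfl
  have hc : algebraMap k E c = ((up E c : Eˣ) : E) := rfl
  rw [hb, hc]
  simp only [bil_eq, Jm, mq, map_add, map_sub, map_mul, H.σα, QuaternionAlgebra.re_mul,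
    QuaternionAlgebra.imI_mul, QuaternionAlgebra.imJ_mul, QuaternionAlgebra.imK_mul, re_qmap,
    imI_qmap, imJ_qmap, imK_qmap, QuaternionAlgebra.re_star, QuaternionAlgebra.imI_star,
    QuaternionAlgebra.imJ_star, QuaternionAlgebra.imK_star, ha]
  field_simp
  ring

/-- The hermitian form attached to `J` is positive at the compact places. -/
theorem Hy.pos_compact {v : OctL E a b c} (hv : v ≠ 0) {w : L →+* ℝ}
    (hwa : w (algebraMap k L a) < 0) (hq : 0 < w q) (hq' : 0 < w (ρL q))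
    (hb : w (algebraMap k L b) < 0) (hc : w (algebraMap k L c) < 0) :
    ∃ n : L, algebraMap L E n = bil v (Jm ρ σ α q v) ∧ 0 < w n := by
  have hα := H.α0
  have h2 : (2 : E) ≠ 0 := NeZero.ne 2
  obtain ⟨n1, e1, p1⟩ := H.exists_nE (v.fst.re + v.fst.imI * α)
  obtain ⟨n2, e2, p2⟩ := H.exists_nE (v.fst.re - v.fst.imI * α)
  obtain ⟨n3, e3, p3⟩ := H.exists_nE (v.fst.imJ + v.fst.imK * α)
  obtain ⟨n4, e4, p4⟩ := H.exists_nE (v.fst.imJ - v.fst.imK * α)
  obtain ⟨n5, e5, p5⟩ := H.exists_nE (v.snd.re + v.snd.imI * α)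
  obtain ⟨n6, e6, p6⟩ := H.exists_nE (v.snd.re - v.snd.imI * α)
  obtain ⟨n7, e7, p7⟩ := H.exists_nE (v.snd.imJ + v.snd.imK * α)
  obtain ⟨n8, e8, p8⟩ := H.exists_nE (v.snd.imJ - v.snd.imK * α)
  have hsum : algebraMap L E (n1 + q * (q * ρL q) * n2 - algebraMap k L b * (q * ρL q * n3 +
      q * n4) - algebraMap k L c * (q * ρL q * n5 + q * n6) +
      algebraMap k L b * algebraMap k L c * (q * n7 + q * ρL q * n8)) =
      bil v (Jm ρ σ α q v) := by
    rw [H.bil_self, ← e1, ← e2, ← e3, ← e4, ← e5, ← e6, ← e7, ← e8, H.ρL',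
      IsScalarTower.algebraMap_apply k L E b, IsScalarTower.algebraMap_apply k L E c]
    simp only [map_add, map_sub, map_mul]
  refine ⟨_, hsum, ?_⟩
  clear hsum
  simp only [map_add, map_sub, map_mul]
  have hnb : 0 < -w (algebraMap k L b) := neg_pos.2 hb
  have hnc : 0 < -w (algebraMap k L c) := neg_pos.2 hc
  have g1 := (p1 w hwa).1
  have g2 := (p2 w hwa).1
  have g3 := (p3 w hwa).1
  have g4 := (p4 w hwa).1
  have g5 := (p5 w hwa).1
  have g6 := (p6 w hwa).1
  have g7 := (p7 w hwa).1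
  have g8 := (p8 w hwa).1
  have t2 : 0 ≤ w q * (w q * w (ρL q)) * w n2 := by positivity
  have t3 : 0 ≤ (-w (algebraMap k L b)) * (w q * w (ρL q) * w n3) := by positivity
  have t4 : 0 ≤ (-w (algebraMap k L b)) * (w q * w n4) := by positivity
  have t5 : 0 ≤ (-w (algebraMap k L c)) * (w q * w (ρL q) * w n5) := by positivity
  have t6 : 0 ≤ (-w (algebraMap k L c)) * (w q * w n6) := by positivity
  have t7 : 0 ≤ (-w (algebraMap k L b)) * (-w (algebraMap k L c)) * (w q * w n7) := by positivity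
  have t8 : 0 ≤ (-w (algebraMap k L b)) * (-w (algebraMap k L c)) * (w q * w (ρL q) * w n8) := by positivity
  by_contra hcon
  apply hv
  have z1 : w n1 = 0 := by linarith
  have z2 : w q * (w q * w (ρL q)) * w n2 = 0 := by linarith
  have z3 : (-w (algebraMap k L b)) * (w q * w (ρL q) * w n3) = 0 := by linarith
  have z4 : (-w (algebraMap k L b)) * (w q * w n4) = 0 := by linarith
  have z5 : (-w (algebraMap k L c)) * (w q * w (ρL q) * w n5) = 0 := by linarith
  have z6 : (-w (algebraMap k L c)) * (w q * w n6) = 0 := by linarith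
  have z7 : (-w (algebraMap k L b)) * (-w (algebraMap k L c)) * (w q * w n7) = 0 := by linarith
  have z8 : (-w (algebraMap k L b)) * (-w (algebraMap k L c)) * (w q * w (ρL q) * w n8) = 0 := by linarith
  have r1 := (p1 w hwa).2 z1
  have r2 := (p2 w hwa).2 (by simpa [hq.ne', hq'.ne', hnb.ne', hnc.ne', hb.ne, hc.ne] using z2)
  have r3 := (p3 w hwa).2 (by simpa [hq.ne', hq'.ne', hb.ne, hc.ne, b.ne_zero, c.ne_zero] using z3)
  have r4 := (p4 w hwa).2 (by simpa [hq.ne', hq'.ne', hb.ne, hc.ne, b.ne_zero, c.ne_zero] using z4)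
  have r5 := (p5 w hwa).2 (by simpa [hq.ne', hq'.ne', hb.ne, hc.ne, b.ne_zero, c.ne_zero] using z5)
  have r6 := (p6 w hwa).2 (by simpa [hq.ne', hq'.ne', hb.ne, hc.ne, b.ne_zero, c.ne_zero] using z6)
  have r7 := (p7 w hwa).2 (by simpa [hq.ne', hq'.ne', hb.ne, hc.ne, b.ne_zero, c.ne_zero] using z7)
  have r8 := (p8 w hwa).2 (by simpa [hq.ne', hq'.ne', hb.ne, hc.ne, b.ne_zero, c.ne_zero] using z8)
  have key : ∀ x y : E, x + y * α = 0 → x - y * α = 0 → x = 0 ∧ y = 0 := by
    intro x y h1 h2'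
    have hx : x = 0 := by
      have : (2 : E) * x = 0 := by linear_combination h1 + h2'
      exact (mul_eq_zero.1 this).resolve_left h2
    have hy : y = 0 := by
      rw [hx, zero_add] at h1
      exact (mul_eq_zero.1 h1).resolve_right hα
    exact ⟨hx, hy⟩
  obtain ⟨k1, k2⟩ := key _ _ r1 r2
  obtain ⟨k3, k4⟩ := key _ _ r3 r4
  obtain ⟨k5, k6⟩ := key _ _ r5 r6
  obtain ⟨k7, k8⟩ := key _ _ r7 r8
  exact ext8 k1 k2 k3 k4 k5 k6 k7 k8

/-- The hermitian form attached to `J` is anisotropic. -/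
theorem aniso {v : OctL E a b c} (hv : v ≠ 0) : bil v (Jm ρ σ α q v) ≠ 0 := by
  obtain ⟨w, hwa, hb, hc, hq, hq', -⟩ := H.cp
  obtain ⟨n, hn, hpos⟩ := H.pos_compact hv hwa hq hq' hb hc
  intro h0
  rw [h0] at hn
  rw [(map_eq_zero _).1 hn, map_zero] at hpos
  exact lt_irrefl _ hpos

/-- At a real place with `a < 0 < b` the algebra `Q₁` is definite at one of the places. -/
theorem Hy.exists_neg [CharZero k] {τ : k →+* ℝ} (hτ : τ a < 0) (hb : 0 < τ b) :
    ∃ w : L →+* ℝ, w.comp (algebraMap k L) = τ ∧ w (q : L) < 0 := by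
  obtain ⟨w, hw⟩ := E6I.exists_real_over (L := L) H.h3 τ
  by_contra hcon
  push Not at hcon
  have hρ : ∀ w' : L →+* ℝ, w'.comp (algebraMap k L) = τ →
      (w'.comp (ρL : L →+* L)).comp (algebraMap k L) = τ := by
    intro w' hw'
    rw [← hw']
    ext t
    change w' (ρL (algebraMap k L t)) = _
    rw [AlgEquiv.commutes]
    rfl
  have hpos : ∀ w' : L →+* ℝ, w'.comp (algebraMap k L) = τ → 0 < w' (q : L) := fun w' hw' =>
    lt_of_le_of_ne (hcon w' hw') (Ne.symm ((map_ne_zero w').2 q.ne_zero))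
  have hwk : ∀ t : k, w (algebraMap k L t) = τ t := fun t => by rw [← hw]; rfl
  obtain ⟨h1, -⟩ := H.hre w (by rw [hwk]; exact hτ) (hpos w hw) (hpos _ (hρ w hw))
    (hpos _ (hρ _ (hρ w hw)))
  rw [hwk] at h1
  exact lt_asymm hb h1

end

end Vale.Agent.P011.D4X
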